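import Mathlib

namespace Vale.Agent.P123

open Complex MeasureTheory intervalIntegral
open scoped InnerProductSpace ComplexConjugate

variable {H : Type*} [NormedAddCommGroup H] [InnerProductSpace ℂ H] [CompleteSpace H]

/-- continuous scalar function with prescribed integral -/
def HI (a b : ℝ) (F : ℝ → ℂ) (v : ℂ) : Prop := Continuous F ∧ ∫ θ in a..b, F θ = v

lemma HI.add {a b : ℝ} {F G : ℝ → ℂ} {v w : ℂ} (h1 : HI a b F v) (h2 : HI a b G w) :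
    HI a b (fun θ => F θ + G θ) (v + w) :=
  ⟨h1.1.add h2.1, by
    rw [integral_add (h1.1.intervalIntegrable _ _) (h2.1.intervalIntegrable _ _), h1.2, h2.2]⟩

lemma HI.cmul {a b : ℝ} {F : ℝ → ℂ} {v : ℂ} (c : ℂ) (h1 : HI a b F v) :
    HI a b (fun θ => c * F θ) (c * v) :=
  ⟨continuous_const.mul h1.1, by rw [intervalIntegral.integral_const_mul, h1.2]⟩

lemma HI.re_nonneg {a b : ℝ} (hab : a ≤ b) {F : ℝ → ℂ} {v : ℂ} (h : HI a b F v)
    (hF : ∀ θ, 0 ≤ (F θ).re) : 0 ≤ v.re := by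
  rw [← h.2]
  have := (reCLM.intervalIntegral_comp_comm (h.1.intervalIntegrable a b (μ := volume)))
  simp only [reCLM_apply] at this
  rw [← this]
  exact intervalIntegral.integral_nonneg hab fun θ _ => hF θ

noncomputable def JJ (a b : ℝ) (S : ℝ → H →L[ℂ] H) (g : ℝ → ℂ) : H →L[ℂ] H :=
  ∫ θ in a..b, g θ • S θ

lemma HI_inner {a b : ℝ} {S : ℝ → H →L[ℂ] H} (hS : Continuous S) {g : ℝ → ℂ} (hg : Continuous g)
    (p q : H) : HI a b (fun θ => g θ * ⟪p, S θ q⟫_ℂ) ⟪p, JJ a b S g q⟫_ℂ := by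
  refine ⟨by fun_prop, ?_⟩
  let L : (H →L[ℂ] H) →L[ℂ] ℂ := (innerSL ℂ p).comp (ContinuousLinearMap.apply ℂ H q)
  have := L.intervalIntegral_comp_comm
    ((hg.smul hS).intervalIntegrable a b (μ := volume))
  simp only [L, ContinuousLinearMap.comp_apply, ContinuousLinearMap.apply_apply, innerSL_apply_apply,
    Pi.smul_apply', smul_apply, inner_smul_right] at this
  exact this

lemma JJ_norm_le {a b : ℝ} (hab : a ≤ b) {S : ℝ → H →L[ℂ] H} (hS : Continuous S) {g : ℝ → ℂ}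
    (hg : ∀ θ, ‖g θ‖ ≤ 1) : ‖JJ a b S g‖ ≤ ∫ θ in a..b, ‖S θ‖ := by
  apply intervalIntegral.norm_integral_le_of_norm_le hab
  · refine Filter.Eventually.of_forall fun θ _ => ?_
    rw [norm_smul]
    exact mul_le_of_le_one_left (norm_nonneg _) (hg θ)
  · exact hS.norm.intervalIntegrable _ _

lemma JJ_comm {a b : ℝ} {S : ℝ → H →L[ℂ] H} (hS : Continuous S) {g : ℝ → ℂ} (hg : Continuous g)
    {T : H →L[ℂ] H} (hT : ∀ θ, T * S θ = S θ * T) : T * JJ a b S g = JJ a b S g * T := by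
  have hi := ((hg.smul hS).intervalIntegrable a b (μ := volume))
  have h1 := (ContinuousLinearMap.mul ℂ (H →L[ℂ] H) T).intervalIntegral_comp_comm hi
  have h2 := ((ContinuousLinearMap.mul ℂ (H →L[ℂ] H)).flip T).intervalIntegral_comp_comm hi
  simp only [ContinuousLinearMap.mul_apply', ContinuousLinearMap.flip_apply, Pi.smul_apply'] at h1 h2
  unfold JJ
  rw [← h1, ← h2]
  congr 1
  ext1 θ
  rw [mul_smul_comm, smul_mul_assoc, hT]

lemma approx_eig (T : H →L[ℂ] H) {η : ℝ} (hη : 0 < η) (hT : 0 < ‖T‖) :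
    ∃ x : H, ‖x‖ ≤ 1 ∧ ‖T‖ ^ 2 - η ≤ ‖T x‖ ^ 2 ∧
      ‖ContinuousLinearMap.adjoint T (T x) - ((‖T‖ ^ 2 : ℝ) : ℂ) • x‖ ^ 2 ≤ 2 * ‖T‖ ^ 2 * η := by
  set κ := ‖T‖ with hκ
  obtain ⟨x, hx1, hx2⟩ : ∃ x : H, ‖x‖ < 1 ∧ κ - η / (2 * κ) < ‖T x‖ :=
    T.exists_lt_apply_of_lt_opNorm (by have : 0 < η / (2 * κ) := by positivity
                                       linarith)
  have hle : ‖T x‖ ≤ κ := by
    calc ‖T x‖ ≤ κ * ‖x‖ := T.le_opNorm x
      _ ≤ κ * 1 := by gcongr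
      _ = κ := mul_one _
  have h0 := norm_nonneg (T x)
  have hsq : κ ^ 2 - η ≤ ‖T x‖ ^ 2 := by
    have e : η = 2 * κ * (η / (2 * κ)) := by field_simp
    have : κ ^ 2 - ‖T x‖ ^ 2 = (κ - ‖T x‖) * (κ + ‖T x‖) := by ring
    have h3 : (κ - ‖T x‖) * (κ + ‖T x‖) ≤ (η / (2 * κ)) * (2 * κ) := by
      apply mul_le_mul <;> [linarith; linarith; positivity; positivity]
    linarith
  refine ⟨x, hx1.le, hsq, ?_⟩
  rw [@norm_sub_sq ℂ]
  have e1 : RCLike.re ⟪ContinuousLinearMap.adjoint T (T x), ((κ ^ 2 : ℝ) : ℂ) • x⟫_ℂ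
      = κ ^ 2 * ‖T x‖ ^ 2 := by
    rw [inner_smul_right, ContinuousLinearMap.adjoint_inner_left, inner_self_eq_norm_sq_to_K]
    simp [← Complex.ofReal_pow]
  have e2 : ‖((κ ^ 2 : ℝ) : ℂ) • x‖ ≤ κ ^ 2 := by
    rw [norm_smul, Complex.norm_real, Real.norm_of_nonneg (by positivity)]
    exact mul_le_of_le_one_right (by positivity) hx1.le
  have e3 : ‖ContinuousLinearMap.adjoint T (T x)‖ ≤ κ ^ 2 := by
    calc _ ≤ ‖ContinuousLinearMap.adjoint T‖ * ‖T x‖ := ContinuousLinearMap.le_opNorm _ _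
      _ = κ * ‖T x‖ := by rw [LinearIsometryEquiv.norm_map]
      _ ≤ κ * κ := by gcongr
      _ = κ ^ 2 := by ring
  rw [e1]
  have e2' : ‖((κ ^ 2 : ℝ) : ℂ) • x‖ ^ 2 ≤ (κ ^ 2) ^ 2 := by gcongr
  have e3' : ‖ContinuousLinearMap.adjoint T (T x)‖ ^ 2 ≤ (κ ^ 2) ^ 2 := by gcongr
  have : κ ^ 2 * (κ ^ 2 - η) ≤ κ ^ 2 * ‖T x‖ ^ 2 := by gcongr
  nlinarith

lemma seq_bound {m : ℕ → ℝ} {κ D B : ℝ} (hκ : 1 < κ) (hB : ∀ n, -B ≤ m n)
    (h : ∀ n, -D ≤ κ ^ 2 * m n - κ * m (n + 1)) : -D ≤ κ * (κ - 1) * m 1 := by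
  have hbdd : BddBelow (Set.range m) := ⟨-B, by rintro _ ⟨n, rfl⟩; exact hB n⟩
  set μ := ⨅ n, m n with hμ
  have h1 : ∀ n, μ ≤ m n := fun n => ciInf_le hbdd n
  have h2 : (κ * μ - D) / κ ^ 2 ≤ μ := by
    apply le_ciInf
    intro n
    rw [div_le_iff₀ (by positivity)]
    have := h n
    have := mul_le_mul_of_nonneg_left (h1 (n + 1)) (by linarith : 0 ≤ κ)
    linarith
  rw [div_le_iff₀ (by positivity)] at h2
  have := mul_le_mul_of_nonneg_left (h1 1) (by nlinarith : 0 ≤ κ * (κ - 1))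
  nlinarith

theorem abstract_bound {a b : ℝ} (hab : a ≤ b) {S : ℝ → H →L[ℂ] H} (hS : Continuous S)
    {f : ℝ → ℂ} (hf : Continuous f) (hf1 : ∀ θ, ‖f θ‖ ≤ 1) {T : H →L[ℂ] H}
    (hpos : ∀ θ v, 0 ≤ (⟪v, S θ v⟫_ℂ).re)
    (hpow : ∀ n : ℕ, JJ a b S (fun θ => f θ ^ n) = T ^ n)
    (hcomm : ∀ θ, T * S θ = S θ * T) : ‖T‖ ≤ 2 := by
  by_contra hcon
  push Not at hcon
  set κ := ‖T‖ with hκ
  set C := ∫ θ in a..b, ‖S θ‖ with hC
  have hC0 : 0 ≤ C := intervalIntegral.integral_nonneg hab fun θ _ => norm_nonneg _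
  let E : ℕ → H →L[ℂ] H := fun n => JJ a b S (fun θ => conj (f θ) ^ n)
  have hEn : ∀ n, ‖E n‖ ≤ C := fun n => JJ_norm_le hab hS fun θ => by
    rw [norm_pow, RCLike.norm_conj]; exact pow_le_one₀ (norm_nonneg _) (hf1 θ)
  have hTn : ∀ n, ‖T ^ n‖ ≤ C := fun n => by
    rw [← hpow n]
    exact JJ_norm_le hab hS fun θ => by
      rw [norm_pow]; exact pow_le_one₀ (norm_nonneg _) (hf1 θ)
  have hEc : ∀ n, T * E n = E n * T := fun n => JJ_comm hS (by fun_prop) hcomm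
  have iP : ∀ (n : ℕ) (p q : H), HI a b (fun θ => f θ ^ n * ⟪p, S θ q⟫_ℂ) ⟪p, (T ^ n) q⟫_ℂ := by
    intro n p q
    rw [← hpow n]; exact HI_inner hS (by fun_prop) p q
  have iE : ∀ (n : ℕ) (p q : H), HI a b (fun θ => conj (f θ) ^ n * ⟪p, S θ q⟫_ℂ) ⟪p, E n q⟫_ℂ :=
    fun n p q => HI_inner hS (by fun_prop) p q
  -- the main estimate for every small parameter
  have main : ∀ s : ℝ, 0 < s → κ ^ 2 * (κ - 2) ≤ s ^ 2 * (κ - 1) + C ^ 2 * (2 * κ * s) := by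
    intro s hs
    obtain ⟨x, hx1, hx2, hx3⟩ := approx_eig T (η := s ^ 2) (by positivity) (by linarith)
    rw [← hκ] at hx2 hx3
    have hz : ‖ContinuousLinearMap.adjoint T (T x) - ((κ ^ 2 : ℝ) : ℂ) • x‖ ≤ 2 * κ * s := by
      apply le_of_sq_le_sq _ (by positivity)
      nlinarith [sq_nonneg (κ * s)]
    set z := ContinuousLinearMap.adjoint T (T x) - ((κ ^ 2 : ℝ) : ℂ) • x with hzdef
    have hET : ∀ n, ‖E n ((T ^ n) x)‖ ≤ C ^ 2 := by
      intro n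
      calc ‖E n ((T ^ n) x)‖ ≤ ‖E n‖ * ‖(T ^ n) x‖ := ContinuousLinearMap.le_opNorm _ _
        _ ≤ ‖E n‖ * (‖T ^ n‖ * ‖x‖) := by gcongr; exact ContinuousLinearMap.le_opNorm _ _
        _ ≤ C * (C * 1) := by gcongr <;> [exact hEn n; exact hTn n]
        _ = C ^ 2 := by ring
    let m : ℕ → ℝ := fun n => (⟪x, E n ((T ^ n) x)⟫_ℂ).re
    have hm : ∀ n, -C ^ 2 ≤ m n := by
      intro n
      have h1 : |m n| ≤ ‖⟪x, E n ((T ^ n) x)⟫_ℂ‖ := Complex.abs_re_le_norm _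
      have h2 : ‖⟪x, E n ((T ^ n) x)⟫_ℂ‖ ≤ 1 * C ^ 2 :=
        (norm_inner_le_norm _ _).trans (by gcongr; exact hET n)
      have := neg_abs_le (m n)
      linarith
    have hm' : ∀ n, (⟪T x, E n ((T ^ (n + 1)) x)⟫_ℂ).re ≤ κ ^ 2 * m n + C ^ 2 * (2 * κ * s) := by
      intro n
      have e1 : E n ((T ^ (n + 1)) x) = T (E n ((T ^ n) x)) := by
        have := congrArg (fun L : H →L[ℂ] H => L ((T ^ n) x)) (hEc n)
        simp only [mul_apply_eq_comp] at this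
        rw [this, pow_succ', mul_apply_eq_comp]
      have e2 : ContinuousLinearMap.adjoint T (T x) = z + ((κ ^ 2 : ℝ) : ℂ) • x := by
        rw [hzdef]; abel
      rw [e1, ← ContinuousLinearMap.adjoint_inner_left, e2, inner_add_left, inner_smul_left,
        Complex.conj_ofReal, Complex.add_re, Complex.re_ofReal_mul]
      have h1 : (⟪z, E n ((T ^ n) x)⟫_ℂ).re ≤ ‖⟪z, E n ((T ^ n) x)⟫_ℂ‖ := Complex.re_le_norm _
      have h2 : ‖⟪z, E n ((T ^ n) x)⟫_ℂ‖ ≤ (2 * κ * s) * C ^ 2 :=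
        (norm_inner_le_norm _ _).trans (by gcongr; exact hET n)
      change _ + κ ^ 2 * m n ≤ _
      linarith
    set t := κ - 1 with ht
    have ht1 : 1 < t := by linarith
    set r : ℝ := ‖T x‖ ^ 2 * (1 - κ) - κ * m 1 + κ ^ 2 * ‖x‖ ^ 2 with hr
    let U : ℝ → ℂ := fun θ => f θ ^ 0 * ⟪T x, S θ (T x)⟫_ℂ + (-κ : ℂ) * (f θ ^ 1 * ⟪T x, S θ x⟫_ℂ)
      + (-κ : ℂ) * (conj (f θ) ^ 1 * ⟪x, S θ (T x)⟫_ℂ) + (κ : ℂ) ^ 2 * (f θ ^ 0 * ⟪x, S θ x⟫_ℂ)
    have iU := (((iP 0 (T x) (T x)).add ((iP 1 (T x) x).cmul (-κ : ℂ))).add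
      ((iE 1 x (T x)).cmul (-κ : ℂ))).add ((iP 0 x x).cmul ((κ : ℂ) ^ 2))
    have hrU : (⟪T x, (T ^ 0) (T x)⟫_ℂ + (-κ : ℂ) * ⟪T x, (T ^ 1) x⟫_ℂ
        + (-κ : ℂ) * ⟪x, E 1 (T x)⟫_ℂ + (κ : ℂ) ^ 2 * ⟪x, (T ^ 0) x⟫_ℂ).re = r := by
      simp only [pow_zero, pow_one, one_apply_eq_self, inner_self_eq_norm_sq_to_K, hr, m]
      simp [← Complex.ofReal_pow]
      ring
    have hU : ∀ θ, (⟪T x - ((κ : ℂ) * f θ) • x, S θ (T x - ((κ : ℂ) * f θ) • x)⟫_ℂ).re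
        ≤ (U θ).re := by
      intro θ
      have e : ⟪T x - ((κ : ℂ) * f θ) • x, S θ (T x - ((κ : ℂ) * f θ) • x)⟫_ℂ
          = U θ - ((κ ^ 2 * (1 - ‖f θ‖ ^ 2) : ℝ) : ℂ) * ⟪x, S θ x⟫_ℂ := by
        simp only [U, map_sub, map_smul, inner_sub_left, inner_sub_right, inner_smul_left,
          inner_smul_right, map_mul, Complex.conj_ofReal]
        push_cast
        rw [← Complex.conj_mul']
        ring
      rw [e, Complex.sub_re, Complex.re_ofReal_mul]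
      have h1 : ‖f θ‖ ^ 2 ≤ 1 := pow_le_one₀ (norm_nonneg _) (hf1 θ)
      have := mul_nonneg (mul_nonneg (sq_nonneg κ) (sub_nonneg.mpr h1)) (hpos θ x)
      linarith
    have hr0 : 0 ≤ r := by
      rw [← hrU]
      exact iU.re_nonneg hab fun θ => (hpos θ _).trans (hU θ)
    have step : ∀ n, 0 ≤ t * ((⟪T x, E n ((T ^ (n + 1)) x)⟫_ℂ).re - κ * m (n + 1)) + r := by
      intro n
      set y := (T ^ (n + 1)) x with hy
      have iG := (((((iP 0 y y).cmul ((t : ℂ) ^ 2)).add ((iP n y (T x)).cmul (t : ℂ))).add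
        ((iP (n + 1) y x).cmul (-(t * κ) : ℂ))).add ((iE n (T x) y).cmul (t : ℂ))).add
        ((iE (n + 1) x y).cmul (-(t * κ) : ℂ))
      have h := (iG.add iU).re_nonneg hab (fun θ => by
        set u := T x - ((κ : ℂ) * f θ) • x with hu
        have h1 := hpos θ ((t : ℂ) • y + f θ ^ n • u)
        have h2 := hU θ
        rw [← hu] at h2
        have e : ⟪(t : ℂ) • y + f θ ^ n • u, S θ ((t : ℂ) • y + f θ ^ n • u)⟫_ℂ =
            ((t : ℂ) ^ 2 * (f θ ^ 0 * ⟪y, S θ y⟫_ℂ) + (t : ℂ) * (f θ ^ n * ⟪y, S θ (T x)⟫_ℂ)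
              + (-(t * κ) : ℂ) * (f θ ^ (n + 1) * ⟪y, S θ x⟫_ℂ)
              + (t : ℂ) * (conj (f θ) ^ n * ⟪T x, S θ y⟫_ℂ)
              + (-(t * κ) : ℂ) * (conj (f θ) ^ (n + 1) * ⟪x, S θ y⟫_ℂ))
              + ((‖f θ ^ n‖ ^ 2 : ℝ) : ℂ) * ⟪u, S θ u⟫_ℂ := by
          have a1 : ⟪y, S θ u⟫_ℂ = ⟪y, S θ (T x)⟫_ℂ - κ * f θ * ⟪y, S θ x⟫_ℂ := by
            simp only [hu, map_sub, map_smul, inner_sub_right, inner_smul_right]
          have a2 : ⟪u, S θ y⟫_ℂ = ⟪T x, S θ y⟫_ℂ - κ * conj (f θ) * ⟪x, S θ y⟫_ℂ := by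
            simp only [hu, inner_sub_left, inner_smul_left, map_mul, Complex.conj_ofReal]
          simp only [map_add, map_smul, inner_add_left, inner_add_right, inner_smul_left,
            inner_smul_right, Complex.conj_ofReal, a1, a2]
          push_cast
          rw [← Complex.conj_mul', map_pow]
          ring
        rw [e, Complex.add_re, Complex.re_ofReal_mul] at h1
        have h3 : ‖f θ ^ n‖ ^ 2 ≤ 1 := by
          apply pow_le_one₀ (norm_nonneg _)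
          rw [norm_pow]; exact pow_le_one₀ (norm_nonneg _) (hf1 θ)
        have h4 := mul_le_of_le_one_left (hpos θ u) h3
        rw [Complex.add_re]
        change 0 ≤ _ + (U θ).re
        linarith)
      rw [Complex.add_re, hrU] at h
      have ey : (T ^ n) (T x) = y := by rw [hy, pow_succ, mul_apply_eq_comp]
      rw [ey, ← hy] at h
      simp only [pow_zero, one_apply_eq_self, inner_self_eq_norm_sq_to_K] at h
      have e2 : m (n + 1) = (⟪x, E (n + 1) y⟫_ℂ).re := rfl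
      rw [e2]
      simp [← Complex.ofReal_pow] at h
      have : κ = t + 1 := by linarith
      nlinarith
    have hD : ∀ n, -(r / t + C ^ 2 * (2 * κ * s)) ≤ κ ^ 2 * m n - κ * m (n + 1) := by
      intro n
      have h1 := step n
      have h2 := hm' n
      have h3 : -(r / t) ≤ (⟪T x, E n ((T ^ (n + 1)) x)⟫_ℂ).re - κ * m (n + 1) := by
        rw [neg_le, le_div_iff₀ (by linarith)]; linarith
      linarith
    have hs1 := seq_bound (by linarith : 1 < κ) hm hD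
    rw [← ht] at hs1
    have he0 : 0 ≤ C ^ 2 * (2 * κ * s) := by positivity
    have hrt : r / t ≤ r := div_le_self hr0 ht1.le
    have hkm : -(κ * m 1) ≤ r + C ^ 2 * (2 * κ * s) := by
      by_cases h0 : 0 ≤ κ * m 1
      · linarith
      · push Not at h0
        nlinarith
    have hx2' : ‖x‖ ^ 2 ≤ 1 := pow_le_one₀ (norm_nonneg _) hx1
    have a1 : κ ^ 2 * ‖x‖ ^ 2 ≤ κ ^ 2 := mul_le_of_le_one_right (by positivity) hx2'
    have a2 : (κ ^ 2 - s ^ 2) * t ≤ ‖T x‖ ^ 2 * t := by gcongr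
    have : κ = t + 1 := by linarith
    nlinarith
  have hc : Continuous fun s : ℝ => s ^ 2 * (κ - 1) + C ^ 2 * (2 * κ * s) := by fun_prop
  have hlim : Filter.Tendsto (fun s : ℝ => s ^ 2 * (κ - 1) + C ^ 2 * (2 * κ * s))
      (nhdsWithin 0 (Set.Ioi 0)) (nhds 0) := by
    have := hc.tendsto 0
    simp only [ne_eq, OfNat.ofNat_ne_zero, not_false_eq_true, zero_pow, zero_mul, mul_zero,
      add_zero] at this
    exact this.mono_left nhdsWithin_le_nhds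
  have := ge_of_tendsto hlim (eventually_nhdsWithin_of_forall fun s hs => main s hs)
  have : 0 < κ ^ 2 * (κ - 2) := by
    apply mul_pos <;> [positivity; linarith]
  linarith

end Vale.Agent.P123
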