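import Mathlib

namespace Vale.Agent.P123

open Complex MeasureTheory intervalIntegral Set Polynomial

variable {𝒜 : Type*} [NormedRing 𝒜] [NormedAlgebra ℂ 𝒜] [CompleteSpace 𝒜]

omit [CompleteSpace 𝒜] in
lemma res_mul {A : 𝒜} {z : ℂ} (h : z ∈ resolventSet ℂ A) :
    resolvent A z * (algebraMap ℂ 𝒜 z - A) = 1 := Ring.inverse_mul_cancel _ h

omit [CompleteSpace 𝒜] in
lemma mul_res {A : 𝒜} {z : ℂ} (h : z ∈ resolventSet ℂ A) :
    (algebraMap ℂ 𝒜 z - A) * resolvent A z = 1 := Ring.mul_inverse_cancel _ h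

omit [CompleteSpace 𝒜] in
lemma res_comm {A D : 𝒜} {z : ℂ} (h : z ∈ resolventSet ℂ A) (hD : D * A = A * D) :
    D * resolvent A z = resolvent A z * D := by
  have h1 : D * (algebraMap ℂ 𝒜 z - A) = (algebraMap ℂ 𝒜 z - A) * D := by
    rw [mul_sub, sub_mul, hD, Algebra.commutes]
  calc D * resolvent A z = (resolvent A z * (algebraMap ℂ 𝒜 z - A)) * D * resolvent A z := by
        rw [res_mul h, one_mul]
    _ = resolvent A z * (D * ((algebraMap ℂ 𝒜 z - A) * resolvent A z)) := by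
        rw [mul_assoc (resolvent A z), ← h1]; simp only [mul_assoc]
    _ = resolvent A z * D := by rw [mul_res h, mul_one]

omit [CompleteSpace 𝒜] in
lemma res_sub {A B : 𝒜} {z : ℂ} (hA : z ∈ resolventSet ℂ A) (hB : z ∈ resolventSet ℂ B) :
    resolvent B z - resolvent A z = resolvent A z * (B - A) * resolvent B z := by
  have : B - A = (algebraMap ℂ 𝒜 z - A) - (algebraMap ℂ 𝒜 z - B) := by abel
  rw [this, mul_sub, sub_mul, res_mul hA, one_mul, mul_assoc, mul_res hB, mul_one]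

section curve
variable {γ γ' : ℝ → ℂ} {a b : ℝ}

lemma res_hasDeriv (hγ : ∀ θ, HasDerivAt γ (γ' θ) θ) {A : 𝒜}
    (h : ∀ θ, γ θ ∈ resolventSet ℂ A) (θ : ℝ) :
    HasDerivAt (fun θ => resolvent A (γ θ)) (γ' θ • (-resolvent A (γ θ) ^ 2)) θ :=
  (spectrum.hasDerivAt_resolvent_const_left (h θ)).scomp θ (hγ θ)

lemma res_cont (hγ : ∀ θ, HasDerivAt γ (γ' θ) θ) {A : 𝒜}
    (h : ∀ θ, γ θ ∈ resolventSet ℂ A) : Continuous fun θ => resolvent A (γ θ) :=
  continuous_iff_continuousAt.mpr fun θ => (res_hasDeriv hγ h θ).continuousAt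

lemma int_sq (hγ : ∀ θ, HasDerivAt γ (γ' θ) θ) (hc : Continuous γ') (hcl : γ b = γ a) {A : 𝒜}
    (h : ∀ θ, γ θ ∈ resolventSet ℂ A) :
    ∫ θ in a..b, γ' θ • (-resolvent A (γ θ) ^ 2) = 0 := by
  have hr := res_cont hγ h
  rw [integral_eq_sub_of_hasDerivAt (fun θ _ => res_hasDeriv hγ h θ)
    ((by fun_prop : Continuous fun θ => γ' θ • (-resolvent A (γ θ) ^ 2)).intervalIntegrable _ _),
    hcl, sub_self]

lemma mul_integral {F : ℝ → 𝒜} (hF : Continuous F) (D : 𝒜) :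
    D * ∫ θ in a..b, F θ = ∫ θ in a..b, D * F θ := by
  have h1 := (ContinuousLinearMap.mul ℂ 𝒜 D).intervalIntegral_comp_comm
    (hF.intervalIntegrable a b (μ := volume))
  simp only [ContinuousLinearMap.mul_apply'] at h1
  exact h1.symm

lemma int_pow (hγ : ∀ θ, HasDerivAt γ (γ' θ) θ) (hc : Continuous γ') (hcl : γ b = γ a) {A : 𝒜}
    (h : ∀ θ, γ θ ∈ resolventSet ℂ A) (n : ℕ) :
    ∫ θ in a..b, (γ θ ^ n * γ' θ) • resolvent A (γ θ)
      = A ^ n * ∫ θ in a..b, γ' θ • resolvent A (γ θ) := by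
  have hr := res_cont hγ h
  have hγc : Continuous γ := continuous_iff_continuousAt.mpr fun θ => (hγ θ).continuousAt
  induction n with
  | zero => simp
  | succ n ih =>
    have z : ∫ θ in a..b, γ θ ^ n * γ' θ = 0 := by
      have d : ∀ θ, HasDerivAt (fun θ => γ θ ^ (n + 1) / (n + 1 : ℂ)) (γ θ ^ n * γ' θ) θ := by
        intro θ
        refine HasDerivAt.congr_deriv (((hγ θ).pow (n + 1)).div_const (n + 1 : ℂ)) ?_
        have : (n + 1 : ℂ) ≠ 0 := by exact_mod_cast Nat.succ_ne_zero n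
        simp only [Nat.add_sub_cancel]; push_cast; field_simp
      rw [integral_eq_sub_of_hasDerivAt (fun θ _ => d θ)
        ((by fun_prop : Continuous fun θ => γ θ ^ n * γ' θ).intervalIntegrable _ _), hcl, sub_self]
    have e : ∀ θ, (γ θ ^ (n + 1) * γ' θ) • resolvent A (γ θ)
        = (γ θ ^ n * γ' θ) • (1 : 𝒜) + A * ((γ θ ^ n * γ' θ) • resolvent A (γ θ)) := by
      intro θ
      rw [← mul_res (h θ), sub_mul, mul_smul_comm, ← smul_add, sub_add_cancel,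
        ← Algebra.smul_def, smul_smul]
      congr 1; ring
    simp only [e]
    rw [integral_add ((by fun_prop : Continuous fun θ => (γ θ ^ n * γ' θ) • (1 : 𝒜)).intervalIntegrable
      _ _) ((by fun_prop : Continuous fun θ =>
        A * ((γ θ ^ n * γ' θ) • resolvent A (γ θ))).intervalIntegrable _ _),
      intervalIntegral.integral_smul_const, z, zero_smul, zero_add,
      ← mul_integral (by fun_prop), ih, pow_succ', mul_assoc]

lemma int_poly (hγ : ∀ θ, HasDerivAt γ (γ' θ) θ) (hc : Continuous γ') (hcl : γ b = γ a) {A : 𝒜}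
    (h : ∀ θ, γ θ ∈ resolventSet ℂ A) (p : ℂ[X]) :
    ∫ θ in a..b, (p.eval (γ θ) * γ' θ) • resolvent A (γ θ)
      = aeval A p * ∫ θ in a..b, γ' θ • resolvent A (γ θ) := by
  have hr := res_cont hγ h
  have hγc : Continuous γ := continuous_iff_continuousAt.mpr fun θ => (hγ θ).continuousAt
  induction p using Polynomial.induction_on' with
  | add p q hp hq =>
    have cp : Continuous fun θ => p.eval (γ θ) := p.continuous.comp hγc
    have cq : Continuous fun θ => q.eval (γ θ) := q.continuous.comp hγc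
    simp only [eval_add, add_mul, add_smul, map_add]
    rw [integral_add ((by fun_prop : Continuous fun θ =>
        (p.eval (γ θ) * γ' θ) • resolvent A (γ θ)).intervalIntegrable _ _)
      ((by fun_prop : Continuous fun θ =>
        (q.eval (γ θ) * γ' θ) • resolvent A (γ θ)).intervalIntegrable _ _), hp, hq]
  | monomial n c =>
    simp only [eval_monomial, aeval_monomial, mul_assoc, mul_smul c]
    rw [intervalIntegral.integral_smul, int_pow hγ hc hcl h, Algebra.smul_def]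

lemma const_of_sq {E : Type*} [NormedAddCommGroup E] [NormedSpace ℝ E] {F : ℝ → E} {K : ℝ}
    (h : ∀ σ ∈ Icc (0 : ℝ) 1, ∀ τ ∈ Icc (0 : ℝ) 1, ‖F σ - F τ‖ ≤ K * (σ - τ) ^ 2) : F 1 = F 0 := by
  have hd : ∀ τ ∈ Icc (0 : ℝ) 1, HasDerivWithinAt F 0 (Icc 0 1) τ := by
    intro τ hτ
    rw [hasDerivWithinAt_iff_isLittleO]
    simp only [smul_zero, sub_zero]
    have h1 : (fun σ => F σ - F τ) =O[nhdsWithin τ (Icc 0 1)] fun σ => (σ - τ) ^ 2 := by
      apply Asymptotics.IsBigO.of_bound K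
      filter_upwards [self_mem_nhdsWithin] with σ hσ
      rw [Real.norm_of_nonneg (sq_nonneg _)]
      exact h σ hσ τ hτ
    refine h1.trans_isLittleO ?_
    exact (Asymptotics.isLittleO_pow_sub_sub τ (by norm_num : 1 < 2)).mono nhdsWithin_le_nhds
      |>.congr_left fun σ => by simp
  have := constant_of_derivWithin_zero (fun τ hτ => (hd τ hτ).differentiableWithinAt)
    (fun τ hτ => (hd τ (Ico_subset_Icc_self hτ)).derivWithin
      (uniqueDiffOn_Icc_zero_one τ (Ico_subset_Icc_self hτ)))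
  exact this 1 ⟨zero_le_one, le_refl _⟩

lemma homotopy (hab : a ≤ b) (hγ : ∀ θ, HasDerivAt γ (γ' θ) θ) (hc : Continuous γ')
    (hcl : γ b = γ a) {A0 D : 𝒜} (hD : D * A0 = A0 * D) {K : ℝ}
    (h : ∀ τ ∈ Icc (0 : ℝ) 1, ∀ θ, γ θ ∈ resolventSet ℂ (A0 + (τ : ℂ) • D))
    (hK : ∀ τ ∈ Icc (0 : ℝ) 1, ∀ θ, ‖resolvent (A0 + (τ : ℂ) • D) (γ θ)‖ ≤ K) :
    ∫ θ in a..b, γ' θ • resolvent (A0 + D) (γ θ) = ∫ θ in a..b, γ' θ • resolvent A0 (γ θ) := by
  have := @const_of_sq 𝒜 _ _ (fun τ : ℝ => ∫ θ in a..b, γ' θ • resolvent (A0 + (τ : ℂ) • D) (γ θ))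
    ((‖D‖ ^ 2 * K ^ 3) * ∫ θ in a..b, ‖γ' θ‖) ?_
  · simpa using this
  intro σ hσ τ hτ
  have cσ := res_cont hγ (h σ hσ)
  have cτ := res_cont hγ (h τ hτ)
  set Rσ := fun θ => resolvent (A0 + (σ : ℂ) • D) (γ θ) with hRσ
  set Rτ := fun θ => resolvent (A0 + (τ : ℂ) • D) (γ θ) with hRτ
  have hcomm : ∀ θ, D * Rτ θ = Rτ θ * D := fun θ => res_comm (h τ hτ θ) (by
    rw [mul_add, add_mul, hD, mul_smul_comm, smul_mul_assoc])
  have hsub : ∀ θ, Rσ θ - Rτ θ = ((σ - τ : ℝ) : ℂ) • (Rτ θ * D * Rσ θ) := by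
    intro θ
    have := res_sub (h τ hτ θ) (h σ hσ θ)
    rw [add_sub_add_left_eq_sub, ← sub_smul, mul_smul_comm, smul_mul_assoc] at this
    push_cast; exact this
  have hsub2 : ∀ θ, γ' θ • Rσ θ - γ' θ • Rτ θ =
      (-((σ - τ : ℝ) : ℂ)) • (D * (γ' θ • (-Rτ θ ^ 2)))
        + (((σ - τ : ℝ) : ℂ) ^ 2 * γ' θ) • (Rτ θ * D * (Rτ θ * D * Rσ θ)) := by
    intro θ
    have e1 : Rσ θ = Rτ θ + ((σ - τ : ℝ) : ℂ) • (Rτ θ * D * Rσ θ) := by rw [← hsub]; abel
    have e2 : Rτ θ * D * Rσ θ = D * Rτ θ ^ 2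
        + ((σ - τ : ℝ) : ℂ) • (Rτ θ * D * (Rτ θ * D * Rσ θ)) := by
      conv_lhs => rw [e1]
      rw [mul_add, mul_smul_comm, ← hcomm, sq, mul_assoc D]
    rw [← smul_sub, hsub]
    conv_lhs => rw [e2]
    simp only [mul_smul_comm, mul_neg]
    module
  have i0 := int_sq hγ hc hcl (h τ hτ)
  change ‖(∫ θ in a..b, γ' θ • Rσ θ) - ∫ θ in a..b, γ' θ • Rτ θ‖ ≤ _
  rw [← integral_sub ((by fun_prop : Continuous fun θ => γ' θ • Rσ θ).intervalIntegrable _ _)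
    ((by fun_prop : Continuous fun θ => γ' θ • Rτ θ).intervalIntegrable _ _)]
  simp only [hsub2]
  rw [integral_add ((by fun_prop : Continuous fun θ =>
      (-((σ - τ : ℝ) : ℂ)) • (D * (γ' θ • (-Rτ θ ^ 2)))).intervalIntegrable _ _)
    ((by fun_prop : Continuous fun θ => (((σ - τ : ℝ) : ℂ) ^ 2 * γ' θ) •
      (Rτ θ * D * (Rτ θ * D * Rσ θ))).intervalIntegrable _ _),
    intervalIntegral.integral_smul, ← mul_integral (by fun_prop), i0, mul_zero, smul_zero, zero_add]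
  have : ‖D‖ ^ 2 * K ^ 3 * (∫ θ in a..b, ‖γ' θ‖) * (σ - τ) ^ 2
      = ∫ θ in a..b, (‖D‖ ^ 2 * K ^ 3 * (σ - τ) ^ 2) * ‖γ' θ‖ := by
    rw [intervalIntegral.integral_const_mul]; ring
  rw [this]
  apply intervalIntegral.norm_integral_le_of_norm_le hab
  · refine Filter.Eventually.of_forall fun θ _ => ?_
    have k1 : ‖Rσ θ‖ ≤ K := hK σ hσ θ
    have k2 : ‖Rτ θ‖ ≤ K := hK τ hτ θ
    have hK0 : 0 ≤ K := (norm_nonneg _).trans k1
    have n1 : ‖Rτ θ * D‖ ≤ K * ‖D‖ := (norm_mul_le _ _).trans (by gcongr)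
    have n2 : ‖Rτ θ * D * Rσ θ‖ ≤ K * ‖D‖ * K := (norm_mul_le _ _).trans (by gcongr)
    have n3 : ‖Rτ θ * D * (Rτ θ * D * Rσ θ)‖ ≤ K * ‖D‖ * (K * ‖D‖ * K) :=
      (norm_mul_le _ _).trans (by gcongr)
    rw [norm_smul, norm_mul, norm_pow, Complex.norm_real, Real.norm_eq_abs, sq_abs]
    calc (σ - τ) ^ 2 * ‖γ' θ‖ * ‖Rτ θ * D * (Rτ θ * D * Rσ θ)‖
        ≤ (σ - τ) ^ 2 * ‖γ' θ‖ * (K * ‖D‖ * (K * ‖D‖ * K)) := by gcongr
      _ = _ := by ring
  · exact (by fun_prop : Continuous fun θ =>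
      (‖D‖ ^ 2 * K ^ 3 * (σ - τ) ^ 2) * ‖γ' θ‖).intervalIntegrable _ _

end curve

end Vale.Agent.P123
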