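import Mathlib

namespace Vale.Agent.P123

open Complex MeasureTheory intervalIntegral Set
open scoped ComplexConjugate Real

noncomputable def ee (θ : ℝ) : ℂ := exp (θ * I)

lemma ee_add (s t : ℝ) : ee (s + t) = ee s * ee t := by
  simp [ee, add_mul, Complex.exp_add]

lemma norm_ee (t : ℝ) : ‖ee t‖ = 1 := by simp [ee]

lemma conj_ee (t : ℝ) : conj (ee t) = ee (-t) := by
  simp [ee, ← Complex.exp_conj]

lemma ee_zero : ee 0 = 1 := by simp [ee]

lemma conj_ee_mul (s t : ℝ) : conj (ee s) * ee t = ee (t - s) := by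
  rw [conj_ee, ← ee_add]; congr 1; ring

lemma ee_re (t : ℝ) : (ee t).re = Real.cos t := by simp [ee, Complex.exp_ofReal_mul_I_re]
lemma ee_im (t : ℝ) : (ee t).im = Real.sin t := by simp [ee, Complex.exp_ofReal_mul_I_im]

lemma ee_two_pi : ee (2 * π) = 1 := by
  simp [ee]

lemma hasDerivAt_ee (t : ℝ) : HasDerivAt ee (I * ee t) t := by
  have h1 : HasDerivAt (fun s : ℝ => (s : ℂ) * I) (1 * I) t :=
    (Complex.ofRealCLM.hasDerivAt (x := t)).mul_const I
  have := h1.cexp
  simp only [one_mul] at this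
  rw [mul_comm] at this
  exact this

@[fun_prop] lemma continuous_ee : Continuous ee :=
  continuous_iff_continuousAt.mpr fun t => (hasDerivAt_ee t).continuousAt

lemma ee_lip (s t : ℝ) : ‖ee s - ee t‖ ≤ |s - t| := by
  have : ee s - ee t = ee t * (exp (I * ((s - t : ℝ) : ℂ)) - 1) := by
    have : ee s = ee t * ee (s - t) := by rw [← ee_add]; congr 1; ring
    rw [this, mul_comm I]; simp only [ee]; ring
  rw [this, norm_mul, norm_ee, one_mul]
  exact Real.norm_exp_I_mul_ofReal_sub_one_le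

lemma ee_add_conj (a : ℝ) : conj (ee a) + ee a = 2 * Real.cos a := by
  rw [add_comm, Complex.add_conj, ee_re]; push_cast; ring

noncomputable def supp (W : Set ℂ) (θ : ℝ) : ℝ := sSup ((fun w => (conj (ee θ) * w).re) '' W)

section
variable {W : Set ℂ} {L : ℝ}

lemma le_supp (hL : ∀ w ∈ W, ‖w‖ ≤ L) (θ : ℝ) {w : ℂ} (hw : w ∈ W) :
    (conj (ee θ) * w).re ≤ supp W θ := by
  apply le_csSup
  · refine ⟨L, ?_⟩
    rintro _ ⟨v, hv, rfl⟩
    calc (conj (ee θ) * v).re ≤ ‖conj (ee θ) * v‖ := Complex.re_le_norm _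
      _ = ‖v‖ := by rw [norm_mul, RCLike.norm_conj, norm_ee, one_mul]
      _ ≤ L := hL v hv
  · exact ⟨w, hw, rfl⟩

lemma supp_le (hne : W.Nonempty) (θ : ℝ) {c : ℝ} (h : ∀ w ∈ W, (conj (ee θ) * w).re ≤ c) :
    supp W θ ≤ c := by
  apply csSup_le (hne.image _)
  rintro _ ⟨v, hv, rfl⟩
  exact h v hv

lemma supp_lip (hne : W.Nonempty) (hL : ∀ w ∈ W, ‖w‖ ≤ L) (s t : ℝ) :
    supp W s ≤ supp W t + L * |s - t| := by
  apply supp_le hne
  intro w hw
  have h1 := le_supp hL t hw
  have h2 : (conj (ee s) * w).re - (conj (ee t) * w).re = (conj (ee s - ee t) * w).re := by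
    rw [map_sub, sub_mul, Complex.sub_re]
  have h3 : (conj (ee s - ee t) * w).re ≤ |s - t| * L := by
    calc _ ≤ ‖conj (ee s - ee t) * w‖ := Complex.re_le_norm _
      _ = ‖ee s - ee t‖ * ‖w‖ := by rw [norm_mul, RCLike.norm_conj]
      _ ≤ |s - t| * L := by
        apply mul_le_mul (ee_lip s t) (hL w hw) (norm_nonneg _) (abs_nonneg _)
  linarith

lemma supp_cont (hne : W.Nonempty) (hL : ∀ w ∈ W, ‖w‖ ≤ L) : Continuous (supp W) := by
  have hL0 : 0 ≤ L := by obtain ⟨w, hw⟩ := hne; exact (norm_nonneg w).trans (hL w hw)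
  have : LipschitzWith ⟨L, hL0⟩ (supp W) :=
    LipschitzWith.of_le_add_mul _ fun s t => by
      have := supp_lip hne hL s t
      rwa [Real.dist_eq]
  exact this.continuous

lemma supp_periodic (θ : ℝ) : supp W (θ + 2 * π) = supp W θ := by
  simp [supp, ee_add, ee_two_pi]

lemma supp_sublin (hne : W.Nonempty) (hL : ∀ w ∈ W, ‖w‖ ≤ L) (θ a : ℝ) (ha : 0 < Real.cos a) :
    2 * Real.cos a * supp W θ ≤ supp W (θ + a) + supp W (θ - a) := by
  rw [mul_comm, ← le_div_iff₀ (by positivity)]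
  apply supp_le hne
  intro w hw
  rw [le_div_iff₀ (by positivity)]
  have h1 := le_supp hL (θ + a) hw
  have h2 := le_supp hL (θ - a) hw
  have e : (conj (ee (θ + a)) * w).re + (conj (ee (θ - a)) * w).re
      = (conj (ee θ) * w).re * (2 * Real.cos a) := by
    rw [← Complex.add_re, sub_eq_add_neg, ee_add, ee_add, map_mul, map_mul, ← conj_ee a,
      Complex.conj_conj]
    have : conj (ee θ) * conj (ee a) * w + conj (ee θ) * ee a * w
        = ((2 * Real.cos a : ℝ) : ℂ) * (conj (ee θ) * w) := by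
      push_cast; rw [← Complex.ofReal_cos, ← ee_add_conj]; ring
    rw [this, Complex.re_ofReal_mul, mul_comm]
  linarith

end

lemma ker_bound {h k : ℝ → ℝ} (hh : Continuous h) (hk : Continuous k) {p q h0 δ K : ℝ} (hpq : p ≤ q)
    (hk0 : ∀ u ∈ Icc p q, 0 ≤ k u) (hK : ∫ u in p..q, k u = K)
    (hd : ∀ u ∈ Icc p q, |h u - h0| ≤ δ) :
    |(∫ u in p..q, h u * k u) - h0 * K| ≤ δ * K := by
  rw [abs_le]
  constructor
  · have : ∫ u in p..q, (h0 - δ) * k u ≤ ∫ u in p..q, h u * k u := by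
      apply intervalIntegral.integral_mono_on hpq
      · exact (by fun_prop : Continuous fun u => (h0 - δ) * k u).intervalIntegrable _ _
      · exact (by fun_prop : Continuous fun u => h u * k u).intervalIntegrable _ _
      · intro u hu
        have := (abs_le.mp (hd u hu)).1
        exact mul_le_mul_of_nonneg_right (by linarith) (hk0 u hu)
    rw [intervalIntegral.integral_const_mul, hK] at this
    linarith
  · have : ∫ u in p..q, h u * k u ≤ ∫ u in p..q, (h0 + δ) * k u := by
      apply intervalIntegral.integral_mono_on hpq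
      · exact (by fun_prop : Continuous fun u => h u * k u).intervalIntegrable _ _
      · exact (by fun_prop : Continuous fun u => (h0 + δ) * k u).intervalIntegrable _ _
      · intro u hu
        have := (abs_le.mp (hd u hu)).2
        exact mul_le_mul_of_nonneg_right (by linarith) (hk0 u hu)
    rw [intervalIntegral.integral_const_mul, hK] at this
    linarith

lemma re_mul_integral {h : ℝ → ℝ} (hh : Continuous h) (c : ℂ) (p q : ℝ) :
    (c * ∫ u in p..q, (h u : ℂ) * ee u).re = ∫ u in p..q, h u * (c * ee u).re := by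
  rw [← intervalIntegral.integral_const_mul]
  have := (reCLM.intervalIntegral_comp_comm
    ((by fun_prop : Continuous fun u => c * ((h u : ℂ) * ee u)).intervalIntegrable p q (μ := volume)))
  simp only [reCLM_apply] at this
  rw [← this]
  congr 1
  ext u
  rw [mul_left_comm, Complex.re_ofReal_mul]

theorem exists_curve0 {W : Set ℂ} {L : ℝ} (hne : W.Nonempty) (hL : ∀ w ∈ W, ‖w‖ ≤ L)
    {ε : ℝ} (hε : 0 < ε) :
    ∃ (γ : ℝ → ℂ) (ρ : ℝ → ℝ), Continuous ρ ∧ (∀ θ, 0 ≤ ρ θ) ∧
      (∀ θ, HasDerivAt γ (I * ee θ * ρ θ) θ) ∧ γ (2 * π) = γ 0 ∧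
      ∀ θ, |(conj (ee θ) * γ θ).re - supp W θ| ≤ ε := by
  have hL0 : 0 ≤ L := by obtain ⟨w, hw⟩ := hne; exact (norm_nonneg w).trans (hL w hw)
  obtain ⟨a, ha0, ha1, haL⟩ : ∃ a : ℝ, 0 < a ∧ a ≤ 1 ∧ L * a ≤ ε := by
    refine ⟨min 1 (ε / (L + 1)), by positivity, min_le_left _ _, ?_⟩
    have : min 1 (ε / (L + 1)) ≤ ε / (L + 1) := min_le_right _ _
    calc L * min 1 (ε / (L + 1)) ≤ (L + 1) * (ε / (L + 1)) := by gcongr; linarith
      _ = ε := by field_simp
  have hpi := Real.pi_gt_three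
  have hcos : 0 < Real.cos a := Real.cos_pos_of_mem_Ioo ⟨by linarith, by linarith⟩
  have hcos1 : Real.cos a < 1 := by
    have := Real.cos_lt_cos_of_nonneg_of_le_pi (le_refl 0) (by linarith : a ≤ π) ha0
    rwa [Real.cos_zero] at this
  set h := supp W with hh
  have hc : Continuous h := supp_cont hne hL
  let g : ℝ → ℂ := fun u => (h u : ℂ) * ee u
  have hg : Continuous g := by fun_prop
  let Φ : ℝ → ℂ := fun θ => ∫ u in (0 : ℝ)..θ, g u
  have hΦ : ∀ θ, HasDerivAt Φ (g θ) θ := fun θ => (hg.integral_hasStrictDerivAt 0 θ).hasDerivAt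
  have hΦsub : ∀ p q, Φ q - Φ p = ∫ u in p..q, g u := fun p q =>
    integral_interval_sub_left (hg.intervalIntegrable _ _) (hg.intervalIntegrable _ _)
  set c : ℝ := 1 / (2 * (1 - Real.cos a)) with hcdef
  have hc0 : 0 < c := by rw [hcdef]; apply one_div_pos.mpr; linarith
  let γ : ℝ → ℂ := fun θ =>
    I * c * (conj (ee a) * Φ (θ + a) + ee a * Φ (θ - a) - (2 * Real.cos a : ℂ) * Φ θ)
  have hγ : ∀ θ, γ θ = I * c * (conj (ee a) * (∫ u in θ..(θ + a), g u)
      - ee a * ∫ u in (θ - a)..θ, g u) := by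
    intro θ
    simp only [γ]
    rw [← hΦsub, ← hΦsub, ← ee_add_conj]; ring
  refine ⟨γ, fun θ => c * (h (θ + a) + h (θ - a) - 2 * Real.cos a * h θ), by fun_prop, ?_, ?_, ?_, ?_⟩
  · intro θ
    have := supp_sublin hne hL θ a hcos
    apply mul_nonneg hc0.le; linarith
  · intro θ
    have d1 : HasDerivAt (fun θ => Φ (θ + a)) (g (θ + a)) θ := (hΦ (θ + a)).comp_add_const θ a
    have d2 : HasDerivAt (fun θ => Φ (θ - a)) (g (θ - a)) θ := (hΦ (θ - a)).comp_sub_const θ a
    have := (((d1.const_mul (conj (ee a))).add (d2.const_mul (ee a))).sub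
      ((hΦ θ).const_mul (2 * Real.cos a : ℂ))).const_mul (I * c)
    refine HasDerivAt.congr_deriv this ?_
    simp only [g]
    have e1 : conj (ee a) * ee (θ + a) = ee θ := by rw [conj_ee_mul]; congr 1; ring
    have e2 : ee a * ee (θ - a) = ee θ := by rw [← ee_add]; congr 1; ring
    rw [mul_left_comm (conj (ee a)), e1, mul_left_comm (ee a), e2]
    push_cast; ring
  · have per : Function.Periodic g (2 * π) := by
      intro u; simp only [g, hh, supp_periodic, ee_add, ee_two_pi, mul_one]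
    rw [hγ, hγ]
    have p0 : ∀ p q : ℝ, ∫ u in (p + 2 * π)..(q + 2 * π), g u = ∫ u in p..q, g u := by
      intro p q
      rw [← intervalIntegral.integral_comp_add_right]
      simp only [per _]
    have p1 := p0 0 (0 + a)
    have p2 := p0 (0 - a) 0
    rw [show (0 : ℝ) + a + 2 * π = 2 * π + a by ring, zero_add] at p1
    rw [show (0 : ℝ) - a + 2 * π = 2 * π - a by ring, zero_add] at p2
    rw [p1, p2]
  · intro θ
    have e : conj (ee θ) * γ θ = (c : ℂ) * ((I * conj (ee (θ + a))) * (∫ u in θ..(θ + a), g u)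
        + (-I * conj (ee (θ - a))) * ∫ u in (θ - a)..θ, g u) := by
      rw [hγ, sub_eq_add_neg θ a, ee_add, ee_add, map_mul, map_mul, ← conj_ee a, Complex.conj_conj]
      ring
    rw [e, Complex.re_ofReal_mul, Complex.add_re, re_mul_integral hc, re_mul_integral hc]
    have k1 : ∀ u, (I * conj (ee (θ + a)) * ee u).re = Real.sin (θ + a - u) := by
      intro u
      rw [mul_assoc, conj_ee_mul, Complex.I_mul_re, ee_im, ← Real.sin_neg]; congr 1; ring
    have k2 : ∀ u, (-I * conj (ee (θ - a)) * ee u).re = Real.sin (u - (θ - a)) := by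
      intro u
      rw [mul_assoc, conj_ee_mul, neg_mul, Complex.neg_re, Complex.I_mul_re, ee_im, neg_neg]
    simp only [k1, k2]
    have lip : ∀ u, |u - θ| ≤ a → |h u - h θ| ≤ ε := by
      intro u hu
      have l1 := supp_lip hne hL u θ
      have l2 := supp_lip hne hL θ u
      rw [abs_sub_comm θ u] at l2
      have : L * |u - θ| ≤ L * a := by gcongr
      rw [abs_le]; constructor <;> linarith
    have b1 := ker_bound (k := fun u => Real.sin (θ + a - u)) (h0 := h θ) (δ := ε)
      (K := 1 - Real.cos a) hc (by fun_prop) (by linarith : θ ≤ θ + a)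
      (fun u hu => Real.sin_nonneg_of_nonneg_of_le_pi (by linarith [hu.2]) (by linarith [hu.1]))
      (by rw [intervalIntegral.integral_comp_sub_left (fun x => Real.sin x) (θ + a)]; simp)
      (fun u hu => lip u (by rw [abs_le]; constructor <;> linarith [hu.1, hu.2]))
    have b2 := ker_bound (k := fun u => Real.sin (u - (θ - a))) (h0 := h θ) (δ := ε)
      (K := 1 - Real.cos a) hc (by fun_prop) (by linarith : θ - a ≤ θ)
      (fun u hu => Real.sin_nonneg_of_nonneg_of_le_pi (by linarith [hu.1]) (by linarith [hu.2]))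
      (by rw [intervalIntegral.integral_comp_sub_right (fun x => Real.sin x) (θ - a)]; simp)
      (fun u hu => lip u (by rw [abs_le]; constructor <;> linarith [hu.1, hu.2]))
    have hcK : c * (2 * (1 - Real.cos a)) = 1 := by
      rw [hcdef]; apply one_div_mul_cancel; linarith
    rw [abs_le] at b1 b2 ⊢
    set A := ∫ u in θ..(θ + a), h u * Real.sin (θ + a - u)
    set B := ∫ u in (θ - a)..θ, h u * Real.sin (u - (θ - a))
    have t1 : c * (A + B) - h θ = c * ((A - h θ * (1 - Real.cos a)) + (B - h θ * (1 - Real.cos a))) := by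
      linear_combination (h θ) * hcK
    have t2 : ε = c * (ε * (1 - Real.cos a) + ε * (1 - Real.cos a)) := by
      linear_combination (-ε) * hcK
    rw [t1]
    constructor
    · have := mul_le_mul_of_nonneg_left (add_le_add b1.1 b2.1) hc0.le
      linarith
    · have := mul_le_mul_of_nonneg_left (add_le_add b1.2 b2.2) hc0.le
      linarith

lemma curve_max {γ : ℝ → ℂ} {ρ : ℝ → ℝ} (hρ : ∀ θ, 0 ≤ ρ θ)
    (hγ : ∀ θ, HasDerivAt γ (I * ee θ * ρ θ) θ) (φ θ : ℝ) (h1 : φ - π ≤ θ) (h2 : θ ≤ φ + π) :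
    (conj (ee φ) * γ θ).re ≤ (conj (ee φ) * γ φ).re := by
  let g : ℝ → ℝ := fun t => (conj (ee φ) * γ t).re
  have hg : ∀ t, HasDerivAt g (-(Real.sin (t - φ) * ρ t)) t := by
    intro t
    have := reCLM.hasFDerivAt.comp_hasDerivAt t ((hγ t).const_mul (conj (ee φ)))
    refine HasDerivAt.congr_deriv this ?_
    have e : conj (ee φ) * (I * ee t * ρ t) = (ρ t : ℂ) * (I * ee (t - φ)) := by
      rw [← conj_ee_mul]; ring
    rw [reCLM_apply, e, Complex.re_ofReal_mul, Complex.I_mul_re, ee_im]; ring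
  have hcont : Continuous g := continuous_iff_continuousAt.mpr fun t => (hg t).continuousAt
  have hpi := Real.pi_pos
  rcases le_total φ θ with h | h
  · have : AntitoneOn g (Icc φ (φ + π)) := by
      apply antitoneOn_of_deriv_nonpos (convex_Icc _ _) hcont.continuousOn
        (fun t _ => (hg t).differentiableAt.differentiableWithinAt)
      intro t ht
      rw [interior_Icc] at ht
      rw [(hg t).deriv, neg_nonpos]
      exact mul_nonneg (Real.sin_nonneg_of_nonneg_of_le_pi (by linarith [ht.1]) (by linarith [ht.2]))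
        (hρ t)
    exact this ⟨le_refl _, by linarith⟩ ⟨h, h2⟩ h
  · have : MonotoneOn g (Icc (φ - π) φ) := by
      apply monotoneOn_of_deriv_nonneg (convex_Icc _ _) hcont.continuousOn
        (fun t _ => (hg t).differentiableAt.differentiableWithinAt)
      intro t ht
      rw [interior_Icc] at ht
      rw [(hg t).deriv, neg_nonneg]
      exact mul_nonpos_of_nonpos_of_nonneg
        (Real.sin_nonpos_of_nonpos_of_neg_pi_le (by linarith [ht.2]) (by linarith [ht.1])) (hρ t)
    exact this ⟨h1, h⟩ ⟨by linarith, le_refl _⟩ h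

theorem exists_curve {W : Set ℂ} {L : ℝ} (hne : W.Nonempty) (hL : ∀ w ∈ W, ‖w‖ ≤ L)
    (hW : Convex ℝ W) {ε : ℝ} (hε : 0 < ε) :
    ∃ (γ : ℝ → ℂ) (ρ : ℝ → ℝ), Continuous ρ ∧ (∀ θ, 0 < ρ θ) ∧
      (∀ θ, HasDerivAt γ (I * ee θ * ρ θ) θ) ∧ γ (2 * π) = γ 0 ∧
      (∀ θ, ∀ w ∈ W, ε ≤ (conj (ee θ) * (γ θ - w)).re) ∧
      ∀ θ, ∃ w ∈ W, ‖γ θ - w‖ ≤ 4 * ε := by
  obtain ⟨γ0, ρ0, hρc, hρ0, hγ0, hper, hs⟩ := exists_curve0 hne hL hε
  let γ : ℝ → ℂ := fun θ => γ0 θ + (2 * ε : ℝ) * ee θ
  have hd : ∀ θ, HasDerivAt γ (I * ee θ * ((ρ0 θ + 2 * ε : ℝ) : ℂ)) θ := by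
    intro θ
    refine HasDerivAt.congr_deriv ((hγ0 θ).add ((hasDerivAt_ee θ).const_mul ((2 * ε : ℝ) : ℂ))) ?_
    push_cast; ring
  have hre : ∀ θ, (conj (ee θ) * γ θ).re = (conj (ee θ) * γ0 θ).re + 2 * ε := by
    intro θ
    simp only [γ]
    rw [mul_add, Complex.add_re, mul_left_comm, conj_ee_mul, sub_self, ee_zero, mul_one,
      Complex.ofReal_re]
  have hpos : ∀ θ, 0 < ρ0 θ + 2 * ε := fun θ => by have := hρ0 θ; positivity
  refine ⟨γ, fun θ => ρ0 θ + 2 * ε, by fun_prop, hpos, hd, ?_, ?_, ?_⟩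
  · simp only [γ, hper, ee_two_pi, ee_zero]
  · intro θ w hw
    have h1 := le_supp hL θ hw
    have h2 := (abs_le.mp (hs θ)).1
    rw [mul_sub, Complex.sub_re, hre]
    linarith
  · intro θ
    obtain ⟨q, hq, hmin⟩ := exists_norm_eq_iInf_of_complete_convex hne.closure
      isClosed_closure.isComplete hW.closure (γ θ)
    have hin := (norm_eq_iInf_iff_real_inner_le_zero hW.closure hq).mp hmin
    have hq3 : ‖γ θ - q‖ ≤ 3 * ε := by
      set v := γ θ - q with hv
      set φ := θ + arg (conj (ee θ) * v) with hφ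
      have hvφ : v = (‖v‖ : ℂ) * ee φ := by
        have h1 := Complex.norm_mul_exp_arg_mul_I (conj (ee θ) * v)
        rw [norm_mul, RCLike.norm_conj, norm_ee, one_mul] at h1
        have h2 : ee θ * conj (ee θ) = 1 := by rw [mul_comm, conj_ee_mul, sub_self, ee_zero]
        rw [hφ, ee_add]
        change (‖v‖ : ℂ) * ee (arg (conj (ee θ) * v)) = _ at h1
        rw [mul_left_comm, h1, ← mul_assoc, h2, one_mul]
      have hnorm : (conj (ee φ) * v).re = ‖v‖ := by
        conv_lhs => rw [hvφ]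
        rw [mul_left_comm, conj_ee_mul, sub_self, ee_zero, mul_one, Complex.ofReal_re]
      rcases (norm_nonneg v).eq_or_lt with h0 | h0
      · rw [← h0]; positivity
      have hsupp : supp W φ ≤ (conj (ee φ) * q).re := by
        apply supp_le hne
        intro w hw
        have h1 := hin w (subset_closure hw)
        rw [Complex.inner] at h1
        have e : (w - q) * conj v = (‖v‖ : ℂ) * (conj (ee φ) * w - conj (ee φ) * q) := by
          conv_lhs => rw [hvφ]
          rw [map_mul, Complex.conj_ofReal]; ring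
        rw [e, Complex.re_ofReal_mul, Complex.sub_re] at h1
        nlinarith
      have a1 := Complex.neg_pi_lt_arg (conj (ee θ) * v)
      have a2 := Complex.arg_le_pi (conj (ee θ) * v)
      have hmax := curve_max (fun θ => (hpos θ).le) hd φ θ (by linarith) (by linarith)
      have h2 := (abs_le.mp (hs φ)).2
      rw [hre φ] at hmax
      rw [← hnorm, hv, mul_sub, Complex.sub_re]
      linarith
    obtain ⟨w, hw, hwq⟩ := Metric.mem_closure_iff.mp hq ε hε
    refine ⟨w, hw, ?_⟩
    rw [dist_eq_norm] at hwq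
    calc ‖γ θ - w‖ = ‖(γ θ - q) + (q - w)‖ := by congr 1; ring
      _ ≤ ‖γ θ - q‖ + ‖q - w‖ := norm_add_le _ _
      _ ≤ 4 * ε := by linarith

end Vale.Agent.P123
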