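import Mathlib

namespace Vale.Agent.P123

open scoped InnerProductSpace

/-- The numerical range of a bounded operator: all values of the form ⟨A x, x⟩ (inner product
linear in the slot holding `A x`) over unit vectors `x`. -/
def numRange {H : Type*} [NormedAddCommGroup H] [InnerProductSpace ℂ H] (A : H →L[ℂ] H) : Set ℂ :=
  {z | ∃ x : H, ‖x‖ = 1 ∧ z = ⟪x, A x⟫_ℂ}

end Vale.Agent.P123
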