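import Vale.Agent.P123.Defs

namespace Vale.Agent.P123

open Complex Set
open scoped InnerProductSpace ComplexConjugate

variable {H : Type*} [NormedAddCommGroup H] [InnerProductSpace ℂ H]

lemma numRange_norm_le (A : H →L[ℂ] H) : ∀ w ∈ numRange A, ‖w‖ ≤ ‖A‖ := by
  rintro _ ⟨x, hx, rfl⟩
  calc ‖⟪x, A x⟫_ℂ‖ ≤ ‖x‖ * ‖A x‖ := norm_inner_le_norm _ _
    _ ≤ ‖x‖ * (‖A‖ * ‖x‖) := by gcongr; exact A.le_opNorm x
    _ = ‖A‖ := by rw [hx]; ring

lemma numRange_nonempty [Nontrivial H] (A : H →L[ℂ] H) : (numRange A).Nonempty := by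
  obtain ⟨x, hx⟩ := exists_norm_eq H (zero_le_one' ℝ)
  exact ⟨_, x, hx, rfl⟩

lemma mem_numRange (A : H →L[ℂ] H) {z : H} (hz : z ≠ 0) :
    ⟪z, A z⟫_ℂ / ((‖z‖ ^ 2 : ℝ) : ℂ) ∈ numRange A := by
  have h0 : 0 < ‖z‖ := norm_pos_iff.mpr hz
  refine ⟨((‖z‖⁻¹ : ℝ) : ℂ) • z, ?_, ?_⟩
  · rw [norm_smul, Complex.norm_real, Real.norm_of_nonneg (by positivity), inv_mul_cancel₀ h0.ne']
  · rw [map_smul, inner_smul_left, inner_smul_right, Complex.conj_ofReal]
    have : ((‖z‖ : ℝ) : ℂ) ≠ 0 := by exact_mod_cast h0.ne'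
    push_cast; field_simp

/-- normalised form of the Toeplitz-Hausdorff theorem -/
lemma TH0 (B : H →L[ℂ] H) {x y : H} (hx : ‖x‖ = 1) (hy : ‖y‖ = 1) (h0 : ⟪x, B x⟫_ℂ = 0)
    (h1 : ⟪y, B y⟫_ℂ = 1) {t : ℝ} (ht0 : 0 ≤ t) (ht1 : t ≤ 1) : (t : ℂ) ∈ numRange B := by
  set p := ⟪x, B y⟫_ℂ with hp
  set q := ⟪y, B x⟫_ℂ with hq
  obtain ⟨l, hl1, hl⟩ : ∃ l : ℂ, ‖l‖ = 1 ∧ (conj l * p + l * q).im = 0 := by
    obtain ⟨l, hl1, hl2⟩ : ∃ l : ℂ, ‖l‖ = 1 ∧ (l * (q - conj p)).im = 0 := by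
      by_cases h : q - conj p = 0
      · exact ⟨1, by simp, by simp [h]⟩
      · have hn : 0 < ‖q - conj p‖ := norm_pos_iff.mpr h
        refine ⟨conj (q - conj p) / (‖q - conj p‖ : ℝ), ?_, ?_⟩
        · rw [norm_div, RCLike.norm_conj, Complex.norm_real, Real.norm_of_nonneg hn.le,
            div_self hn.ne']
        · rw [div_mul_eq_mul_div, Complex.conj_mul']
          rw [← Complex.ofReal_pow, ← Complex.ofReal_div, Complex.ofReal_im]
    refine ⟨l, hl1, ?_⟩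
    simp only [Complex.mul_im, Complex.add_im, Complex.sub_re, Complex.sub_im, Complex.conj_re,
      Complex.conj_im] at hl2 ⊢
    linarith
  let z : ℝ → H := fun s => (((1 - s : ℝ) : ℂ) * l) • x + (s : ℂ) • y
  have hzB : ∀ s, ⟪z s, B (z s)⟫_ℂ
      = ((s ^ 2 + s * (1 - s) * (conj l * p + l * q).re : ℝ) : ℂ) := by
    intro s
    have e : conj l * p + l * q = ((conj l * p + l * q).re : ℂ) := by
      apply Complex.ext <;> simp only [Complex.ofReal_re, Complex.ofReal_im, hl]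
    simp only [z, map_add, map_smul, inner_add_left, inner_add_right, inner_smul_left,
      inner_smul_right, map_mul, Complex.conj_ofReal, h0, h1, ← hp, ← hq]
    push_cast
    rw [← e]; ring
  have hz0 : ∀ s, z s ≠ 0 := by
    intro s hs
    have h2 : (s : ℂ) • y = -((((1 - s : ℝ) : ℂ) * l) • x) := by
      rw [eq_neg_iff_add_eq_zero, add_comm]; exact hs
    have h3 : ⟪(s : ℂ) • y, B ((s : ℂ) • y)⟫_ℂ = 0 := by
      rw [h2]; simp only [map_neg, map_smul, inner_neg_neg, inner_smul_left, inner_smul_right, h0,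
        mul_zero]
    rw [map_smul, inner_smul_left, inner_smul_right, h1, Complex.conj_ofReal, mul_one,
      mul_self_eq_zero] at h3
    have hs0 : s = 0 := by exact_mod_cast h3
    subst hs0
    have := congrArg norm h2
    simp [norm_smul, hl1, hx] at this
  let g : ℝ → ℝ := fun s => (s ^ 2 + s * (1 - s) * (conj l * p + l * q).re) / ‖z s‖ ^ 2
  have hzc : Continuous z := by fun_prop
  have hgc : Continuous g := by
    apply Continuous.div (by fun_prop) (by fun_prop)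
    intro s; exact pow_ne_zero _ (norm_ne_zero_iff.mpr (hz0 s))
  have g0 : g 0 = 0 := by simp [g]
  have g1 : g 1 = 1 := by simp [g, z, hy]
  obtain ⟨s, -, hs⟩ := intermediate_value_Icc zero_le_one hgc.continuousOn
    (show t ∈ Icc (g 0) (g 1) by rw [g0, g1]; exact ⟨ht0, ht1⟩)
  have := mem_numRange B (hz0 s)
  rw [hzB, ← Complex.ofReal_div] at this
  rw [← hs]; exact this

theorem numRange_convex (A : H →L[ℂ] H) : Convex ℝ (numRange A) := by
  rw [convex_iff_add_mem]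
  rintro _ ⟨x, hx, rfl⟩ _ ⟨y, hy, rfl⟩ s t hs ht hst
  set a := ⟪x, A x⟫_ℂ with ha
  set b := ⟪y, A y⟫_ℂ with hb
  by_cases hab : b - a = 0
  · have : b = a := by linear_combination hab
    rw [this, ← add_smul, hst, one_smul]
    exact ⟨x, hx, rfl⟩
  let B : H →L[ℂ] H := (b - a)⁻¹ • (A - a • 1)
  have hB : ∀ v : H, ‖v‖ = 1 → ⟪v, B v⟫_ℂ = (b - a)⁻¹ * (⟪v, A v⟫_ℂ - a) := by
    intro v hv
    simp only [B, smul_apply, sub_apply, one_apply_eq_self, inner_smul_right, inner_sub_right,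
      inner_self_eq_norm_sq_to_K, hv]
    simp
  obtain ⟨v, hv, hv2⟩ := TH0 B hx hy (by rw [hB x hx, ← ha]; simp)
    (by rw [hB y hy, ← hb, inv_mul_cancel₀ hab]) ht (by linarith)
  refine ⟨v, hv, ?_⟩
  rw [hB v hv] at hv2
  have hs' : (s : ℂ) = 1 - t := by
    have : s = 1 - t := by linarith
    rw [this]; push_cast; ring
  simp only [Complex.real_smul]
  rw [hs']
  field_simp at hv2
  linear_combination hv2

end Vale.Agent.P123
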