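import Vale.Agent.P123.Abstract
import Vale.Agent.P123.Curve
import Vale.Agent.P123.Cauchy
import Vale.Agent.P123.TH

namespace Vale.Agent.P123

open Complex MeasureTheory intervalIntegral Set Polynomial
open scoped InnerProductSpace ComplexConjugate Real

variable {H : Type*} [NormedAddCommGroup H] [InnerProductSpace ℂ H] [CompleteSpace H]

lemma coer_unit (B : H →L[ℂ] H) {δ : ℝ} (hδ : 0 < δ) (h : ∀ x, δ * ‖x‖ ^ 2 ≤ (⟪x, B x⟫_ℂ).re) :
    IsUnit B := by
  set t : ℝ := δ / (‖B‖ ^ 2 + δ ^ 2 + 1) with ht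
  have hden : 0 < ‖B‖ ^ 2 + δ ^ 2 + 1 := by positivity
  have ht0 : 0 < t := by positivity
  have htB : t * ‖B‖ ^ 2 ≤ δ := by
    rw [ht, div_mul_eq_mul_div, div_le_iff₀ hden]; nlinarith [sq_nonneg δ]
  have htδ : t * δ ≤ 1 := by
    rw [ht, div_mul_eq_mul_div, div_le_iff₀ hden]; nlinarith [sq_nonneg ‖B‖]
  have hn : ‖(1 : H →L[ℂ] H) - (t : ℂ) • B‖ ≤ √(1 - t * δ) := by
    apply ContinuousLinearMap.opNorm_le_bound _ (Real.sqrt_nonneg _)
    intro x
    apply le_of_sq_le_sq _ (by positivity)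
    rw [mul_pow, Real.sq_sqrt (by linarith), sub_apply, one_apply_eq_self, smul_apply,
      @norm_sub_sq ℂ, inner_smul_right, norm_smul, Complex.norm_real, Real.norm_of_nonneg ht0.le]
    have e : RCLike.re ((t : ℂ) * ⟪x, B x⟫_ℂ) = t * (⟪x, B x⟫_ℂ).re := Complex.re_ofReal_mul _ _
    rw [e]
    have h1 := mul_le_mul_of_nonneg_left (h x) ht0.le
    have h2 : ‖B x‖ ^ 2 ≤ (‖B‖ * ‖x‖) ^ 2 := by gcongr; exact B.le_opNorm x
    have h3 : t ^ 2 * ‖B x‖ ^ 2 ≤ t ^ 2 * (‖B‖ * ‖x‖) ^ 2 := by gcongr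
    have h4 : t * (t * ‖B‖ ^ 2) * ‖x‖ ^ 2 ≤ t * δ * ‖x‖ ^ 2 := by gcongr
    nlinarith
  have hlt : ‖(1 : H →L[ℂ] H) - (t : ℂ) • B‖ < 1 := by
    refine lt_of_le_of_lt hn ?_
    rw [Real.sqrt_lt' one_pos]
    have : 0 < t * δ := by positivity
    linarith
  have hu := isUnit_one_sub_of_norm_lt_one hlt
  rw [sub_sub_cancel] at hu
  have htne : (t : ℂ) ≠ 0 := by exact_mod_cast ht0.ne'
  have : B = (algebraMap ℂ (H →L[ℂ] H) (t : ℂ)⁻¹) * ((t : ℂ) • B) := by
    rw [← Algebra.smul_def, smul_smul, inv_mul_cancel₀ htne, one_smul]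
  rw [this]
  exact ((IsUnit.mk0 _ (inv_ne_zero htne)).map _).mul hu

lemma res_facts {A : H →L[ℂ] H} {ν z : ℂ} (hν : ‖ν‖ = 1) {δ : ℝ} (hδ : 0 < δ)
    (h : ∀ x, δ * ‖x‖ ^ 2 ≤ (conj ν * ⟪x, (algebraMap ℂ (H →L[ℂ] H) z - A) x⟫_ℂ).re) :
    z ∈ resolventSet ℂ A ∧ ‖resolvent A z‖ ≤ 1 / δ ∧ ∀ v, 0 ≤ (ν * ⟪v, resolvent A z v⟫_ℂ).re := by
  set U := algebraMap ℂ (H →L[ℂ] H) z - A with hU
  have hν0 : ν ≠ 0 := by intro h0; simp [h0] at hν
  have hm : z ∈ resolventSet ℂ A := by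
    have h1 : IsUnit (conj ν • U) := coer_unit _ hδ fun x => by
      rw [smul_apply, inner_smul_right]; exact h x
    have h2 : conj ν ≠ 0 := by simpa using hν0
    have : U = (algebraMap ℂ (H →L[ℂ] H) (conj ν)⁻¹) * (conj ν • U) := by
      rw [← Algebra.smul_def, smul_smul, inv_mul_cancel₀ h2, one_smul]
    change IsUnit U
    rw [this]
    exact ((IsUnit.mk0 _ (inv_ne_zero h2)).map _).mul h1
  have hv : ∀ v, U (resolvent A z v) = v := by
    intro v
    have := congrArg (fun L : H →L[ℂ] H => L v) (mul_res hm)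
    simpa only [mul_apply_eq_comp, one_apply_eq_self] using this
  refine ⟨hm, ?_, ?_⟩
  · apply ContinuousLinearMap.opNorm_le_bound _ (by positivity)
    intro v
    have h1 := h (resolvent A z v)
    rw [hv] at h1
    have h2 : (conj ν * ⟪resolvent A z v, v⟫_ℂ).re ≤ ‖resolvent A z v‖ * ‖v‖ := by
      calc _ ≤ ‖conj ν * ⟪resolvent A z v, v⟫_ℂ‖ := Complex.re_le_norm _
        _ = ‖⟪resolvent A z v, v⟫_ℂ‖ := by rw [norm_mul, RCLike.norm_conj, hν, one_mul]
        _ ≤ _ := norm_inner_le_norm _ _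
    rcases (norm_nonneg (resolvent A z v)).eq_or_lt with h0 | h0
    · rw [← h0]; positivity
    · rw [one_div, inv_mul_eq_div, le_div_iff₀ hδ]
      nlinarith
  · intro v
    have h1 := h (resolvent A z v)
    rw [hv] at h1
    have : ν * ⟪v, resolvent A z v⟫_ℂ = conj (conj ν * ⟪resolvent A z v, v⟫_ℂ) := by
      rw [map_mul, Complex.conj_conj, inner_conj_symm]
    rw [this, Complex.conj_re]
    exact le_trans (by positivity) h1

lemma winding {γ : ℝ → ℂ} {ρ : ℝ → ℝ} (hρc : Continuous ρ) (hρ : ∀ θ, 0 < ρ θ)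
    (hγ : ∀ θ, HasDerivAt γ (I * ee θ * ρ θ) θ) (hcl : γ (2 * π) = γ 0) {c : ℂ}
    (hc : ∀ θ, 0 < (conj (ee θ) * (γ θ - c)).re) :
    ∃ ω : ℝ, 0 < ω ∧ ∫ θ in (0 : ℝ)..(2 * π), (I * ee θ * ρ θ) * (γ θ - c)⁻¹ = I * ω := by
  have hγc : Continuous γ := continuous_iff_continuousAt.mpr fun θ => (hγ θ).continuousAt
  have hne : ∀ θ, γ θ - c ≠ 0 := by
    intro θ h0; have := hc θ; simp [h0] at this
  have hF : Continuous fun θ => (I * ee θ * ρ θ) * (γ θ - c)⁻¹ :=
    Continuous.mul (by fun_prop) (Continuous.inv₀ (by fun_prop) hne)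
  set F := fun θ => (I * ee θ * ρ θ) * (γ θ - c)⁻¹ with hFdef
  have hN : ∀ θ, 0 < normSq (γ θ - c) := fun θ => normSq_pos.mpr (hne θ)
  have hre := reCLM.intervalIntegral_comp_comm (hF.intervalIntegrable 0 (2 * π) (μ := volume))
  have him := imCLM.intervalIntegral_comp_comm (hF.intervalIntegrable 0 (2 * π) (μ := volume))
  simp only [reCLM_apply, imCLM_apply] at hre him
  refine ⟨(∫ θ in (0 : ℝ)..(2 * π), F θ).im, ?_, ?_⟩
  · rw [← him]
    apply intervalIntegral_pos_of_pos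
      ((Complex.continuous_im.comp hF).intervalIntegrable _ _) _ (by positivity)
    intro θ
    have e : F θ = ((ρ θ / normSq (γ θ - c) : ℝ) : ℂ) * (I * conj (conj (ee θ) * (γ θ - c))) := by
      simp only [hFdef, Complex.inv_def, map_mul, Complex.conj_conj]
      push_cast; ring
    simp only [Function.comp]
    rw [e, Complex.im_ofReal_mul, Complex.I_mul_im, Complex.conj_re]
    exact mul_pos (div_pos (hρ θ) (hN θ)) (hc θ)
  · have h0 : (∫ θ in (0 : ℝ)..(2 * π), F θ).re = 0 := by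
      rw [← hre]
      have d : ∀ θ, HasDerivAt (fun θ => Real.log ((γ θ - c).re ^ 2 + (γ θ - c).im ^ 2) / 2)
          (F θ).re θ := by
        intro θ
        have d0 := (hγ θ).sub_const c
        have d1 := reCLM.hasFDerivAt.comp_hasDerivAt θ d0
        have d2 := imCLM.hasFDerivAt.comp_hasDerivAt θ d0
        have hN' : (γ θ - c).re ^ 2 + (γ θ - c).im ^ 2 = normSq (γ θ - c) := by
          rw [normSq_apply]; ring
        have d3 := (((d1.pow 2).add (d2.pow 2)).log (by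
          change (γ θ - c).re ^ 2 + (γ θ - c).im ^ 2 ≠ 0
          rw [hN']; exact (hN θ).ne')).div_const 2
        refine HasDerivAt.congr_deriv d3 ?_
        simp only [hFdef, Function.comp, reCLM_apply, imCLM_apply, Pi.add_apply, Pi.pow_apply]
        rw [hN']
        generalize I * ee θ * ρ θ = u
        rw [Complex.mul_re u, Complex.inv_re, Complex.inv_im]
        have := (hN θ).ne'
        push_cast
        field_simp
        ring
      rw [integral_eq_sub_of_hasDerivAt (fun θ _ => d θ)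
        ((Complex.continuous_re.comp hF).intervalIntegrable _ _), hcl, sub_self]
    apply Complex.ext
    · rw [h0]; simp
    · simp

theorem bound_lt [Nontrivial H] (A : H →L[ℂ] H) (P : ℂ[X]) {M M' : ℝ} (hMM : M < M')
    (hM : ∀ z ∈ numRange A, ‖P.eval z‖ ≤ M) : ‖aeval A P‖ ≤ 2 * M' := by
  obtain ⟨c, hcW⟩ := numRange_nonempty A
  have hM0 : 0 < M' := lt_of_le_of_lt ((norm_nonneg _).trans (hM c hcW)) hMM
  obtain ⟨ε, hε, hεP⟩ : ∃ ε : ℝ, 0 < ε ∧ ∀ z : ℂ, ∀ w ∈ numRange A, ‖z - w‖ ≤ 4 * ε →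
      ‖P.eval z‖ ≤ M' := by
    have huc := (isCompact_closedBall (0 : ℂ) (‖A‖ + 1)).uniformContinuousOn_of_continuous
      P.continuous.continuousOn
    obtain ⟨η, hη, h⟩ := Metric.uniformContinuousOn_iff.mp huc (M' - M) (by linarith)
    refine ⟨min η 1 / 8, by positivity, fun z w hw hzw => ?_⟩
    have m1 : min η 1 ≤ η := min_le_left _ _
    have m2 : min η 1 ≤ 1 := min_le_right _ _
    have hw1 := numRange_norm_le A w hw
    have hz1 : ‖z‖ ≤ ‖z - w‖ + ‖w‖ := by simpa using norm_add_le (z - w) w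
    have := h z (by rw [mem_closedBall_zero_iff]; linarith) w
      (by rw [mem_closedBall_zero_iff]; linarith) (by rw [dist_eq_norm]; linarith)
    rw [dist_eq_norm] at this
    have h2 : ‖P.eval z‖ ≤ ‖P.eval z - P.eval w‖ + ‖P.eval w‖ := by
      simpa using norm_add_le (P.eval z - P.eval w) (P.eval w)
    have := hM w hw
    linarith
  obtain ⟨γ, ρ, hρc, hρ, hγ, hcl, hin, hnear⟩ :=
    exists_curve ⟨c, hcW⟩ (numRange_norm_le A) (numRange_convex A) hε
  have hγc : Continuous γ := continuous_iff_continuousAt.mpr fun θ => (hγ θ).continuousAt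
  have hγ'c : Continuous fun θ => I * ee θ * (ρ θ : ℂ) := by fun_prop
  set A0 : H →L[ℂ] H := algebraMap ℂ (H →L[ℂ] H) c with hA0
  have hcoer : ∀ τ ∈ Icc (0 : ℝ) 1, ∀ θ, ∀ x : H, ε * ‖x‖ ^ 2 ≤
      (conj (ee θ) * ⟪x, (algebraMap ℂ (H →L[ℂ] H) (γ θ) - (A0 + (τ : ℂ) • (A - A0))) x⟫_ℂ).re := by
    intro τ hτ θ x
    by_cases hx : x = 0
    · simp [hx]
    have h1 := hin θ _ (mem_numRange A hx)
    have h2 := hin θ c hcW
    have hx2 : 0 < ‖x‖ ^ 2 := pow_pos (norm_pos_iff.mpr hx) 2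
    have hx3 : ((‖x‖ ^ 2 : ℝ) : ℂ) ≠ 0 := by exact_mod_cast hx2.ne'
    have e : conj (ee θ) * ⟪x, (algebraMap ℂ (H →L[ℂ] H) (γ θ) - (A0 + (τ : ℂ) • (A - A0))) x⟫_ℂ
        = ((‖x‖ ^ 2 * τ : ℝ) : ℂ) * (conj (ee θ) * (γ θ - ⟪x, A x⟫_ℂ / ((‖x‖ ^ 2 : ℝ) : ℂ)))
          + ((‖x‖ ^ 2 * (1 - τ) : ℝ) : ℂ) * (conj (ee θ) * (γ θ - c)) := by
      have hxx : ⟪x, x⟫_ℂ = ((‖x‖ : ℝ) : ℂ) ^ 2 := inner_self_eq_norm_sq_to_K x
      simp only [hA0, Algebra.algebraMap_eq_smul_one, sub_apply, add_apply, smul_apply,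
        one_apply_eq_self, inner_sub_right, inner_add_right, inner_smul_right, hxx]
      push_cast at hx3 ⊢
      have hx4 : ((‖x‖ : ℝ) : ℂ) ≠ 0 := fun h => hx3 (by rw [h]; simp)
      field_simp
      ring
    rw [e, Complex.add_re, Complex.re_ofReal_mul, Complex.re_ofReal_mul]
    have a1 := mul_le_mul_of_nonneg_left h1 (mul_nonneg hx2.le hτ.1)
    have a2 := mul_le_mul_of_nonneg_left h2 (mul_nonneg hx2.le (sub_nonneg.mpr hτ.2))
    linarith
  have hf := fun τ hτ θ => res_facts (norm_ee θ) hε (hcoer τ hτ θ)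
  have hhom := homotopy (a := 0) (b := 2 * π) (by positivity) hγ hγ'c hcl (A0 := A0) (D := A - A0)
    (Algebra.commutes c _).symm (fun τ hτ θ => (hf τ hτ θ).1) (fun τ hτ θ => (hf τ hτ θ).2.1)
  rw [add_sub_cancel] at hhom
  have hA := hf 1 ⟨zero_le_one, le_refl _⟩
  simp only [Complex.ofReal_one, one_smul, add_sub_cancel] at hA
  obtain ⟨ω, hω, hw⟩ := winding hρc hρ hγ hcl (c := c) fun θ => lt_of_lt_of_le hε (hin θ c hcW)
  have hR0 : ∀ θ, resolvent A0 (γ θ) = (γ θ - c)⁻¹ • (1 : H →L[ℂ] H) := by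
    intro θ
    have hne : γ θ - c ≠ 0 := by
      intro h0; have := hin θ c hcW; simp [h0] at this; linarith
    have h0 := (hf 0 ⟨le_refl _, zero_le_one⟩ θ).1
    simp only [Complex.ofReal_zero, zero_smul, add_zero] at h0
    have h1 := res_mul h0
    rw [hA0, ← map_sub, Algebra.algebraMap_eq_smul_one (γ θ - c), mul_smul_comm, mul_one] at h1
    rw [← h1, smul_smul, inv_mul_cancel₀ hne, one_smul]
  simp only [hR0, smul_smul] at hhom
  rw [intervalIntegral.integral_smul_const, hw] at hhom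
  have hRc := res_cont hγ fun θ => (hA θ).1
  have hωc : (ω : ℂ) ≠ 0 := by exact_mod_cast hω.ne'
  have hMc : (M' : ℂ) ≠ 0 := by exact_mod_cast hM0.ne'
  let Q : ℂ[X] := C ((M' : ℂ)⁻¹) * P
  have key := abstract_bound (a := 0) (b := 2 * π) (by positivity)
    (S := fun θ => (((ρ θ / ω : ℝ) : ℂ) * ee θ) • resolvent A (γ θ)) (by fun_prop)
    (f := fun θ => Q.eval (γ θ)) (Q.continuous.comp hγc) ?_ (T := aeval A Q) ?_ ?_ ?_
  · simp only [Q, map_mul, aeval_C] at key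
    rw [← Algebra.smul_def, norm_smul, norm_inv, Complex.norm_real, Real.norm_of_nonneg hM0.le,
      inv_mul_le_iff₀ hM0] at key
    linarith
  · intro θ
    obtain ⟨w, hw, hw2⟩ := hnear θ
    have := hεP _ w hw hw2
    simp only [Q, eval_mul, eval_C]
    rw [norm_mul, norm_inv, Complex.norm_real, Real.norm_of_nonneg hM0.le, inv_mul_le_iff₀ hM0]
    linarith
  · intro θ v
    rw [smul_apply, inner_smul_right, mul_assoc, Complex.re_ofReal_mul]
    exact mul_nonneg (div_pos (hρ θ) hω).le ((hA θ).2.2 v)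
  · intro n
    have h1 := int_poly hγ hγ'c hcl (fun θ => (hA θ).1) (Q ^ n)
    rw [hhom, map_pow, mul_smul_comm, mul_one] at h1
    unfold JJ
    have e : ∀ θ, Q.eval (γ θ) ^ n • ((((ρ θ / ω : ℝ) : ℂ) * ee θ) • resolvent A (γ θ))
        = (I * ω)⁻¹ • (((Q ^ n).eval (γ θ) * (I * ee θ * ρ θ)) • resolvent A (γ θ)) := by
      intro θ
      rw [smul_smul, smul_smul, eval_pow]
      congr 1
      push_cast; field_simp
    simp only [e]
    rw [intervalIntegral.integral_smul, h1, smul_smul,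
      inv_mul_cancel₀ (mul_ne_zero I_ne_zero hωc), one_smul]
  · intro θ
    rw [mul_smul_comm, smul_mul_assoc, res_comm (hA θ).1]
    have : Commute A (aeval A Q) := by
      have := (Commute.all (X : ℂ[X]) Q).map (aeval A)
      simpa using this
    exact this.symm.eq

theorem bound [Nontrivial H] (A : H →L[ℂ] H) (P : ℂ[X]) {M : ℝ}
    (hM : ∀ z ∈ numRange A, ‖P.eval z‖ ≤ M) : ‖aeval A P‖ ≤ 2 * M := by
  apply le_of_forall_pos_le_add
  intro η hη
  have := bound_lt A P (M' := M + η / 2) (by linarith) hM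
  linarith

theorem example_op.{u} : ∃ A : EuclideanSpace ℂ (ULift.{u} (Fin 2)) →L[ℂ]
    EuclideanSpace ℂ (ULift.{u} (Fin 2)), 1 ≤ ‖A‖ ∧ ∀ z ∈ numRange A, ‖z‖ ≤ 1 / 2 := by
  classical
  refine ⟨(innerSL ℂ (EuclideanSpace.single ⟨1⟩ 1)).smulRight (EuclideanSpace.single ⟨0⟩ 1), ?_, ?_⟩
  · simp
  · rintro _ ⟨x, hx, rfl⟩
    have hn : ‖x ⟨0⟩‖ ^ 2 + ‖x ⟨1⟩‖ ^ 2 = 1 := by
      have := EuclideanSpace.norm_sq_eq x
      rw [hx, ← Equiv.ulift.symm.sum_comp, Fin.sum_univ_two] at this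
      simpa using this.symm
    simp only [ContinuousLinearMap.smulRight_apply, innerSL_apply_apply, inner_smul_right,
      EuclideanSpace.inner_single_right, EuclideanSpace.inner_single_left, norm_mul, one_mul,
      RCLike.norm_conj, map_one]
    nlinarith [sq_nonneg (‖x ⟨0⟩‖ - ‖x ⟨1⟩‖)]

end Vale.Agent.P123
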